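import Vale.Agent.P261.H660.P1
import Mathlib.LinearAlgebra.FreeModule.PID

/-!
# P261: a torsion-free derived `p`-complete group with finite reduction is free over `ℤ_p`
-/

namespace Vale.Agent.P261

/-- A derived `p`-complete abelian group without `p`-torsion, with finite reduction modulo `p`, is
the additive group of a free `ℤ_p`-module of finite rank. -/
theorem DerComplete.exists_free {p : ℕ} [Fact p.Prime] {A : Type*} [AddCommGroup A]
    (h : DerComplete p A) (S : Set A) (hS : S.Finite)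
    (hd : ∀ a : A, ∃ s ∈ S, ∃ b : A, a = s + p • b) (ht : ∀ x : A, p • x = 0 → x = 0) :
    ∃ r : ℕ, Nonempty (A ≃+ (Fin r → ℤ_[p])) := by
  obtain ⟨hM, hfin⟩ := h.exists_module S hS hd
  have hp : ∀ (n : ℕ) (x : A), ((p : ℤ_[p]) ^ n) • x = 0 → x = 0 := by
    intro n
    induction n with
    | zero => intro x hx; simpa using hx
    | succ n ih =>
      intro x hx
      rw [pow_succ, mul_smul] at hx
      have h1 := ih _ hx
      rw [Nat.cast_smul_eq_nsmul] at h1
      exact ht x h1
  have hz : ∀ (z : ℤ_[p]) (x : A), z • x = 0 → z = 0 ∨ x = 0 := by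
    intro z x hx
    by_cases hz0 : z = 0
    · exact Or.inl hz0
    right
    have h1 := PadicInt.unitCoeff_spec hz0
    rw [h1, mul_smul] at hx
    have h2 : ((p : ℤ_[p]) ^ z.valuation) • x = 0 := by
      have h3 : ((PadicInt.unitCoeff hz0)⁻¹ : ℤ_[p]ˣ) • ((PadicInt.unitCoeff hz0 : ℤ_[p]ˣ) •
          (((p : ℤ_[p]) ^ z.valuation) • x)) = 0 := by
        rw [Units.smul_def (PadicInt.unitCoeff hz0), hx, smul_zero]
      rwa [inv_smul_smul] at h3
    exact hp _ _ h2
  have : Module.IsTorsionFree ℤ_[p] A := Module.isTorsionFree_iff_smul_eq_zero.2 hz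
  obtain ⟨r, b⟩ := Module.basisOfFiniteTypeTorsionFree' (R := ℤ_[p]) (M := A)
  exact ⟨r, ⟨b.equivFun.toAddEquiv⟩⟩

end Vale.Agent.P261
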